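import Vale.Agent.P207.N4.Dim
import Vale.Agent.P207.N4.Geo.Over
import Vale.Agent.P207.N4.H266.Metr
import Vale.Agent.P207.N4.H618.MetU0

/-!
# P207, line N4, rows R11, R15: the unstable Riccati solution in the frames of the leaves

* `ukOf`: `UK L` from `Over` and `MDat`.
-/

open scoped Manifold ContDiff ENNReal Topology Matrix
open Bundle MeasureTheory Set Filter Metric

set_option maxSynthPendingDepth 3
set_option linter.unusedSectionVars false

noncomputable section

namespace Vale.Agent.P207.N4.H618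

open Vale.Agent.P207.N3

variable [Dim]

/-! ### isometries -/

/-- the matrix of an isometry of the plane, as a linear map -/
theorem cl_mat (a : O2) : cl (H908.mat a) = (a : E2 ≃L[ℝ] E2).toContinuousLinearMap := by
  refine ContinuousLinearMap.ext fun v => ?_
  ext i
  rw [cl_apply]
  exact (H908.apply_eq a v i).symm

theorem cl_mat_transpose (a : O2) (v : E2) : cl (H908.mat a)ᵀ v = a.symm v := by
  have h1 : cl (H908.mat a)ᵀ ∘L cl (H908.mat a) = ContinuousLinearMap.id ℝ E2 := by
    rw [← cl_mul, H908.mat_transpose_mul, cl_one]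
  have h2 := congrArg (fun T : E2 →L[ℝ] E2 => T (a.symm v)) h1
  simp only [cl_mat, ContinuousLinearMap.coe_comp, Function.comp_apply,
    ContinuousLinearMap.id_apply] at h2
  rw [← h2]
  exact congrArg _ (a.apply_symm_apply v).symm

/-! ### the instance -/

section Inst

open Vale.Agent.P255 (RMetric)
open Vale.Agent.P207.N4.Q Vale.Agent.P207.Q Vale.Agent.P207.Q.H130 Vale.Agent.P207.Q.H545 Vale.Agent.P207.Q.H892
open H908 (mo ext mat)

variable {M : Type} [TopologicalSpace M] [ChartedSpace (EV (Dim.m + 1)) M] [IsManifold 𝓘(ℝ, EV (Dim.m + 1)) ∞ M]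
  {g : RMetric (EV (Dim.m + 1)) M}

theorem ext_single_zero (a : O2) :
    ext a (EuclideanSpace.single (0 : Fin (Dim.m + 1)) (1 : ℝ)) = EuclideanSpace.single 0 1 := by
  have h2 : H908.tl (EuclideanSpace.single (0 : Fin (Dim.m + 1)) (1 : ℝ)) = 0 := by
    ext i
    simp
  rw [H908.ext_apply, h2, map_zero]
  ext i
  refine Fin.cases ?_ (fun j => ?_) i
  · simp
  · simp

theorem mo_ext_mem (a : O2) : mo (ext a) ∈ Stab (Dim.m + 1) := by
  rw [mem_Stab]
  ext i
  have h1 : ∀ i, (mo (ext a)).1 i 0 = EuclideanSpace.single (0 : Fin (Dim.m + 1)) (1 : ℝ) i :=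
    fun i => by rw [H908.mo_val, ext_single_zero]
  simpa [Matrix.mulVec_single_one] using h1 i

theorem low_mo_ext (a : O2) : low (mo (ext a)) = mat a := by
  ext i j
  have h2 : H908.tl (EuclideanSpace.single j.succ (1 : ℝ)) = EuclideanSpace.single j 1 := by
    ext i
    simp [Fin.succ_inj]
  change (mo (ext a)).1 i.succ j.succ = a (EuclideanSpace.single j 1) i
  rw [H908.mo_val, H908.ext_succ]
  change a (H908.tl (EuclideanSpace.single j.succ (1 : ℝ))) i = _
  rw [h2]

/-- the curvature matrix does not change under the flip -/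
theorem Km_flipF (f : Fr g) : Km g (flipF f) = Km g f := Km_flip f

variable [CompactSpace M] [T2Space M] {Φ : ℝ → Fr g → Fr g}

variable {Γ X B : Type} [Group Γ] [MetricSpace X] [ProperSpace X] [MulAction Γ X]
  [IsIsometricSMul Γ X] [TopologicalSpace B] [CompactSpace B] [T2Space B] [MulAction Γ B]
  [ContinuousConstSMul Γ B]

/-- **the unstable Riccati solution in the frames of the leaves** -/
def ukOf (hΦ : IsHorFlow g (Pi.single 0 1) Φ) {L : Leaf Γ X B} {fr : X → Fr g} (O : Over Φ L fr)
    (D : MDat g Φ) : UK L where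
  U x := cl (D.U (fr x))
  U_cont := continuous_cl fun i j => by
    have h1 : Continuous fun x => D.U (fr x) := D.cont.comp O.cont
    exact (continuous_apply j).comp ((continuous_apply i).comp h1)
  U_symm x v w := inner_cl_symm (D.ur.symm hΦ _) v w
  U_pos x v hv := by
    rw [inner_cl]
    have h1 := D.ur.lo (fr x) v.ofLp
    have h2 : 0 < v.ofLp ⬝ᵥ v.ofLp := by
      rw [← inner_eq_dot, real_inner_self_eq_norm_sq]
      have := norm_pos_iff.2 hv
      positivity
    have h3 := mul_pos D.ur.pos h2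
    linarith
  U_smul γ x := by rw [O.smul]
  U_rot a x v := by
    rw [O.rot, D.ur.rot hΦ (mo_ext_mem a), low_mo_ext, cl_mul, cl_mul]
    simp only [ContinuousLinearMap.coe_comp, Function.comp_apply]
    rw [cl_mat_transpose, cl_mat]
    rfl
  K x := cl (-Km g (fr x))
  K_flip x := by rw [O.flip, Km_flipF]
  riccati x t := by
    have h1 := D.ur.ric (fr x) t
    have h2 : HasDerivAt (fun s => cl (D.U (Φ s (fr x))))
        (cl (Km g (Φ t (fr x)) - D.U (Φ t (fr x)) *
          D.U (Φ t (fr x)))) t := hasDerivAt_cl fun i j => by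
      rw [Matrix.sub_apply]
      exact h1 i j
    simp only [O.flow]
    refine h2.congr_deriv ?_
    rw [cl_sub, cl_mul, cl_neg]
    abel

@[simp] theorem ukOf_U (hΦ : IsHorFlow g (Pi.single 0 1) Φ) {L : Leaf Γ X B} {fr : X → Fr g}
    (O : Over Φ L fr) (D : MDat g Φ) (x : X) : (ukOf hΦ O D).U x = cl (D.U (fr x)) := rfl

@[simp] theorem ukOf_K (hΦ : IsHorFlow g (Pi.single 0 1) Φ) {L : Leaf Γ X B} {fr : X → Fr g}
    (O : Over Φ L fr) (D : MDat g Φ) (x : X) : (ukOf hΦ O D).K x = cl (-Km g (fr x)) := rfl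

end Inst

end Vale.Agent.P207.N4.H618
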