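import Vale.Agent.P207.N4.Dim
import Vale.Agent.P207.N4.H566.Glob
import Vale.Agent.P207.N4.H265.DGI

/-!
# P207, line N3, row R23: the connection of the covering space

`Gam h m q`: the Christoffel symbols of the cover `EV n → M` in the coordinates of `EV n`;
`hasDerivAt_EX`: the frames are parallel along the lifts of the horizontal curves;
`Gm_EX`: the frames are orthonormal.
-/

open scoped Manifold ContDiff ENNReal Topology
open Bundle MeasureTheory Set Filter Topology

noncomputable section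

set_option maxSynthPendingDepth 3
set_option linter.unusedSectionVars false

namespace Vale.Agent.P207.N4.H618

open Vale.Agent.P207.N3 Vale.Agent.P207.N3.H618

variable [Dim]

open Vale.Agent.P255 (RMetric Metric Npc chris chrisB IsMetricOn)
open Vale.Agent.P207 Vale.Agent.P207.Q Vale.Agent.P207.Q.Fl
open Vale.Agent.P207.N3.H465 (Deck PB)
open Vale.Agent.P207.N4.H566 Vale.Agent.P207.N3.H566

variable {n : ℕ} {M : Type} [TopologicalSpace M] [ChartedSpace (EV n) M]
  [IsManifold 𝓘(ℝ, EV n) ∞ M] {g : RMetric (EV n) M} [Nonempty (Fr g)] [NeZero n]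
  [CompactSpace M] [T2Space M] (h : Npc (mt g)) (m : M)

/-- the covering map in the chart at `a` -/
def cF (a : M) (q : EV n) : EV n := chartAt (EV n) a ((sys g h).e m q)

/-- the Christoffel symbols of the covering space -/
def Gam (q : EV n) : EV n →L[ℝ] EV n →L[ℝ] EV n :=
  (ContinuousLinearMap.compL ℝ (EV n) (EV n) (EV n)
    (fderiv ℝ (cF h m ((sys g h).e m q)) q).inverse).comp
    (fderiv ℝ (fderiv ℝ (cF h m ((sys g h).e m q))) q +
      (chrisB ((mt g).coef ((sys g h).e m q)) (cF h m ((sys g h).e m q) q)).bilinearComp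
        (fderiv ℝ (cF h m ((sys g h).e m q)) q) (fderiv ℝ (cF h m ((sys g h).e m q)) q))

theorem Gam_apply (q v w : EV n) : Gam h m q v w =
    (fderiv ℝ (cF h m ((sys g h).e m q)) q).inverse
      (fderiv ℝ (fderiv ℝ (cF h m ((sys g h).e m q))) q v w +
      chrisB ((mt g).coef ((sys g h).e m q)) (cF h m ((sys g h).e m q) q)
        (fderiv ℝ (cF h m ((sys g h).e m q)) q v) (fderiv ℝ (cF h m ((sys g h).e m q)) q w)) := rfl

theorem mem_source (q : EV n) :
    (sys g h).e m q ∈ (chartAt (EV n) ((sys g h).e m q)).source := mem_chart_source _ _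

theorem cF_smooth {a : M} {q : EV n} (ha : (sys g h).e m q ∈ (chartAt (EV n) a).source) :
    ContDiffAt ℝ ∞ (cF h m a) q := (locDif_e h m).smooth a q ha

theorem cF_equiv {a : M} {q : EV n} (ha : (sys g h).e m q ∈ (chartAt (EV n) a).source) :
    ∃ L : EV n ≃L[ℝ] EV n, fderiv ℝ (cF h m a) q = L := by
  obtain ⟨L, hL⟩ := (locDif_e h m).inv a q ha
  exact ⟨L, hL.fderiv⟩

theorem fderiv_Gam (q v w : EV n) : fderiv ℝ (cF h m ((sys g h).e m q)) q (Gam h m q v w) =
    fderiv ℝ (fderiv ℝ (cF h m ((sys g h).e m q))) q v w +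
      chrisB ((mt g).coef ((sys g h).e m q)) (cF h m ((sys g h).e m q) q)
        (fderiv ℝ (cF h m ((sys g h).e m q)) q v) (fderiv ℝ (cF h m ((sys g h).e m q)) q w) := by
  rw [Gam_apply]
  obtain ⟨L, hL⟩ := cF_equiv h m (mem_source h m q)
  rw [hL, ContinuousLinearMap.inverse_equiv]
  exact L.apply_symm_apply _

theorem Gam_symm (q v w : EV n) : Gam h m q v w = Gam h m q w v := by
  have hs := cF_smooth h m (mem_source h m q)
  have h2 : ContDiffAt ℝ 2 (cF h m ((sys g h).e m q)) q := by
    exact_mod_cast contDiffAt_infty.1 hs 2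
  have h3 : IsSymmSndFDerivAt ℝ (cF h m ((sys g h).e m q)) q := h2.isSymmSndFDerivAt (by simp)
  have h4 := (mt g).isMetricOn ((sys g h).e m q)
  have h5 : cF h m ((sys g h).e m q) q ∈ (chartAt (EV n) ((sys g h).e m q)).target :=
    (chartAt (EV n) _).map_source (mem_source h m q)
  rw [Gam_apply, Gam_apply, h3 v w, P255.chrisB_apply, P255.chrisB_apply, h4.chris_symm h5]

/-- the frames along the lift of a horizontal curve -/
theorem lift_at (x : XM h m) (ξ : Fin n → ℝ) (t : ℝ) :
    (difX g ((sys g h).e m)).At (fun t : ℝ => lift ((sys g h).cov m) (t • ξ) x) t := by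
  refine lift_plot (locDif_e h m) ((sys g h).cov m) (u := fun _ : ℝ => x) ?_ ?_
  · exact ⟨Sm.const _ _, (frSys g).at_of (Eventually.of_forall fun y => ⟨continuousAt_const,
      x.f.pt, mem_chart_source _ _, contDiffAt_const⟩)⟩
  · exact Sm.of_contDiff (contDiff_id.smul contDiff_const) t

theorem lift_zero_smul (x : XM h m) (ξ : EV n) :
    lift ((sys g h).cov m) ((0 : ℝ) • fun i => ξ i) x = x := by
  rw [zero_smul, lift_zero]

theorem hasDerivAt_q (x : XM h m) (ξ : EV n) :
    HasDerivAt (fun t : ℝ => (lift ((sys g h).cov m) (t • fun i => ξ i) x).q) (EX h m x ξ) 0 := by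
  have h2 := hasDerivAt_lift h m x ξ 0
  rwa [lift_zero_smul] at h2

theorem differentiableAt_EX (x : XM h m) (ξ c : EV n) :
    DifferentiableAt ℝ (fun t : ℝ => EX h m (lift ((sys g h).cov m) (t • fun i => ξ i) x) c) 0 :=
  ((EX_plot h m (lift_at h m x (fun i => ξ i) 0)).contDiffAt.differentiableAt
    (by simp)).clm_apply (differentiableAt_const c)

/-- the frame in the chart -/
theorem hasDerivAt_chF (x : XM h m) (ξ c : EV n) {a : M}
    (ha : (sys g h).e m x.q ∈ (chartAt (EV n) a).source) :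
    HasDerivAt (fun t : ℝ => ∑ i, c i •
        (chF a (lift ((sys g h).cov m) (t • fun i => ξ i) x).f.1).2 i)
      (-chrisB ((mt g).coef a) (cF h m a x.q) (fderiv ℝ (cF h m a) x.q (EX h m x ξ))
          (fderiv ℝ (cF h m a) x.q (EX h m x c))) 0 := by
  have hpx : (sys g h).e m x.q = x.f.pt := PB.e_q x
  have h6 : HasDerivAt (fun t : ℝ => ∑ i, c i • (chF a (hflow g (t • fun i => ξ i) x.f).1).2 i)
      (∑ i, c i • (- chris ((mt g).coef a) (chF a x.f.1).1 (∑ i, ξ i • (chF a x.f.1).2 i)
        ((chF a x.f.1).2 i))) 0 := by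
    refine HasDerivAt.fun_sum fun i _ => ?_
    have h7 := ((isHorFlow_hflow g (fun i => ξ i)) x.f).2.eqn a 0 (mem_univ _) (by
      change (hflow g ((0 : ℝ) • fun i => ξ i) x.f).pt ∈ _
      rw [zero_smul, hflow_zero, ← hpx]
      exact ha)
    have h8 : (hflow g ((0 : ℝ) • fun i => ξ i) x.f) = x.f := by
      rw [zero_smul, hflow_zero]
    have h9 := hasDerivAt_pi.1 h7.snd i
    beta_reduce at h9
    rw [h8] at h9
    exact h9.const_smul (c i)
  have h14 := EX_chart h m x ξ ha
  have h15 := EX_chart h m x c ha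
  have h16 : (chF a x.f.1).1 = cF h m a x.q := by
    rw [chF_fst, cF]
    exact congrArg _ hpx.symm
  have h20 : (fun t : ℝ => ∑ i, c i •
      (chF a (lift ((sys g h).cov m) (t • fun i => ξ i) x).f.1).2 i) =
      fun t : ℝ => ∑ i, c i • (chF a (hflow g (t • fun i => ξ i) x.f).1).2 i := by
    funext t
    rw [f_lift]
  rw [h20]
  refine h6.congr_deriv ?_
  change _ = -chrisB ((mt g).coef a) (cF h m a x.q)
    (fderiv ℝ (fun z => chartAt (EV n) a ((sys g h).e m z)) x.q (EX h m x ξ))
    (fderiv ℝ (fun z => chartAt (EV n) a ((sys g h).e m z)) x.q (EX h m x c))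
  rw [h14, h15, h16, map_sum, ← Finset.sum_neg_distrib]
  refine Finset.sum_congr rfl fun i _ => ?_
  rw [map_smul, smul_neg, P255.chrisB_apply]

/-- differentiation of an implicit equation -/
theorem hasDerivAt_impl {V : Type} [NormedAddCommGroup V] [NormedSpace ℝ V] {F : V → V}
    {q v W : ℝ → V} {q' w G : V} (hq : HasDerivAt q q' 0) (hv : DifferentiableAt ℝ v 0)
    (hF : DifferentiableAt ℝ (fderiv ℝ F) (q 0)) (hW : HasDerivAt W (-w) 0)
    (he : ∀ᶠ t in 𝓝 (0 : ℝ), fderiv ℝ F (q t) (v t) = W t)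
    (hinj : Function.Injective (fderiv ℝ F (q 0)))
    (hG : fderiv ℝ F (q 0) G = fderiv ℝ (fderiv ℝ F) (q 0) q' (v 0) + w) :
    HasDerivAt v (-G) 0 := by
  have h1 := (hF.hasFDerivAt.comp_hasDerivAt (0 : ℝ) hq).clm_apply hv.hasDerivAt
  have h2 := (hW.congr_of_eventuallyEq he).unique h1
  have h3 : deriv v 0 = -G := by
    apply hinj
    rw [map_neg, hG, neg_add, h2]
    simp only [Function.comp_apply]
    abel
  rw [← h3]
  exact hv.hasDerivAt

/-- **the frames are parallel along the lifts of the horizontal curves** -/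
theorem hasDerivAt_EX_zero (x : XM h m) (ξ c : EV n) :
    HasDerivAt (fun t : ℝ => EX h m (lift ((sys g h).cov m) (t • fun i => ξ i) x) c)
      (-Gam h m x.q (EX h m x ξ) (EX h m x c)) 0 := by
  have hsrc := mem_source h m x.q
  have hF := cF_smooth h m hsrc
  have hF1 : DifferentiableAt ℝ (fderiv ℝ (cF h m ((sys g h).e m x.q))) x.q := by
    have h4 : ContDiffAt ℝ ∞ (fderiv ℝ (cF h m ((sys g h).e m x.q))) x.q :=
      hF.fderiv_right (m := ∞) (by simp)
    exact h4.differentiableAt (by simp)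
  have hx := lift_zero_smul h m x ξ
  have hq := hasDerivAt_q h m x ξ
  obtain ⟨L, hL⟩ := cF_equiv h m hsrc
  refine hasDerivAt_impl (F := cF h m ((sys g h).e m x.q)) hq (differentiableAt_EX h m x ξ c)
    ?_ (hasDerivAt_chF h m x ξ c hsrc) ?_ ?_ ?_
  · rw [hx]
    exact hF1
  · have h11 : ∀ᶠ t in 𝓝 (0 : ℝ), (sys g h).e m
        (lift ((sys g h).cov m) (t • fun i => ξ i) x).q ∈
          (chartAt (EV n) ((sys g h).e m x.q)).source := by
      have h12 : ContinuousAt (fun t : ℝ => (sys g h).e m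
          (lift ((sys g h).cov m) (t • fun i => ξ i) x).q) 0 :=
        (locDif_e h m).cont.continuousAt.comp hq.continuousAt
      refine h12.eventually ((chartAt (EV n) _).open_source.mem_nhds ?_)
      beta_reduce
      rw [hx]
      exact hsrc
    filter_upwards [h11] with t ht
    exact EX_chart h m _ c ht
  · rw [hx, hL]
    exact L.injective
  · rw [hx]
    exact fderiv_Gam h m x.q (EX h m x ξ) (EX h m x c)

theorem hasDerivAt_EX (x : XM h m) (ξ c : EV n) (t : ℝ) :
    HasDerivAt (fun t : ℝ => EX h m (lift ((sys g h).cov m) (t • fun i => ξ i) x) c)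
      (-Gam h m (lift ((sys g h).cov m) (t • fun i => ξ i) x).q
        (EX h m (lift ((sys g h).cov m) (t • fun i => ξ i) x) ξ)
        (EX h m (lift ((sys g h).cov m) (t • fun i => ξ i) x) c)) t := by
  set y := lift ((sys g h).cov m) (t • fun i => ξ i) x with hy
  have h2 : (fun s : ℝ => EX h m (lift ((sys g h).cov m) (s • fun i => ξ i) x) c) =
      fun s : ℝ => EX h m (lift ((sys g h).cov m) ((s - t) • fun i => ξ i) y) c := by
    funext s
    rw [hy, ← lift_add, sub_add_cancel]
  rw [h2]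
  have h4 : HasDerivAt (fun t : ℝ => EX h m (lift ((sys g h).cov m) (t • fun i => ξ i) y) c)
      (-Gam h m y.q (EX h m y ξ) (EX h m y c)) (t - t) := by
    rw [sub_self]
    exact hasDerivAt_EX_zero h m y ξ c
  exact HasDerivAt.comp_sub_const t t h4

/-- **the frames are orthonormal** -/
theorem Gm_EX (x : XM h m) (c c' : EV n) :
    H265.Gm g m x.q (EX h m x c) (EX h m x c') = inner ℝ c c' := by
  set a : M := (sys g h).e m x.q with ha
  have hpx : a = x.f.pt := PB.e_q x
  have hsrc : (sys g h).e m x.q ∈ (chartAt (EV n) a).source := mem_source h m x.q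
  have h1 : H265.Gm g m x.q (EX h m x c) (EX h m x c') =
      (mt g).coef a (cF h m a x.q) (fderiv ℝ (cF h m a) x.q (EX h m x c))
        (fderiv ℝ (cF h m a) x.q (EX h m x c')) :=
    H265.pb_eq (mt g) (f := (sys g h).e m) (locDif_e h m).cont hsrc
      ((cF_smooth h m hsrc).differentiableAt (by simp)) _ _
  have h14 := EX_chart h m x c hsrc
  have h15 := EX_chart h m x c' hsrc
  have h16 : (chF a x.f.1).1 = cF h m a x.q := by
    rw [chF_fst, cF]
    exact congrArg _ hpx.symm
  have h17 : ∀ i j, (mt g).coef a (chF a x.f.1).1 ((chF a x.f.1).2 i) ((chF a x.f.1).2 j) =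
    if i = j then 1 else 0 := orth_chFg g x.f a (by rw [← hpx]; exact mem_chart_source _ _)
  rw [h1]
  change (mt g).coef a (cF h m a x.q)
    (fderiv ℝ (fun z => chartAt (EV n) a ((sys g h).e m z)) x.q (EX h m x c))
    (fderiv ℝ (fun z => chartAt (EV n) a ((sys g h).e m z)) x.q (EX h m x c')) = _
  rw [h14, h15, ← h16]
  simp only [map_sum, map_smul, _root_.sum_apply, _root_.smul_apply, h17, smul_eq_mul, mul_ite,
    mul_one, mul_zero, Finset.sum_ite_eq', Finset.mem_univ, if_true]
  rw [PiLp.inner_apply]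
  rfl

end Vale.Agent.P207.N4.H618
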