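import Vale.Agent.P207.N4.Dim
import Vale.Agent.P207.N4.H459.Dirn
import Vale.Agent.P207.N4.H607.RieA
import Vale.Agent.P207.N4.Geo.OverA
import Vale.Agent.P207.N4.H618.ConnG
import Vale.Agent.P207.N4.H618.MetU
import Vale.Agent.P207.N4.H618.Par

/-!
# P207, line N3, rows R11, R15, R23: the connection and the horospherical metric over model (A)

`parA`: parallel transport of the frames for the direction field `dirS`;
`Par.connL`: the connection of the leaf structure, at every base point;
`metrA`: the horospherical metric of the leaf structure over model (A), `hess_metrA` the second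
derivative of the Busemann functions.
-/

open scoped Manifold ContDiff ENNReal Topology
open Bundle MeasureTheory Set Filter Topology Metric

noncomputable section

set_option maxSynthPendingDepth 3
set_option linter.unusedSectionVars false

namespace Vale.Agent.P207.N4.H618

open Vale.Agent.P207.N3 Vale.Agent.P207.N3.H618

variable [Dim]

open Vale.Agent.P255 (RMetric Npc)
open Vale.Agent.P207 Vale.Agent.P207.Q Vale.Agent.P207.Q.Fl
open Vale.Agent.P207.N3.H465 (Deck PB Mt toMt ofMt Xt homeoMt)
open Vale.Agent.P207.N4.H566 (XF XM Exp lift EX)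
open Vale.Agent.P207.N4.H747 (fl TubeR usys UC mC)
open Vale.Agent.P207.N4.H156 (geoA jA lfA lfA_zero co)
open Vale.Agent.P207.N4.H76 (pk e0)
open Vale.Agent.P207.N4.H459 (dirS hasFDerivAt_dirS)
open Vale.Agent.P207.Q.H130 Vale.Agent.P207.Q.H545 Vale.Agent.P207.Q.H892

/-! ### every base point -/

section Leaf

open Vale.Agent.P207.N4.H76 Vale.Agent.P207.N3.H76 Vale.Agent.P207.N4.H607 Vale.Agent.P207.N3.H607

variable {Γ X Y : Type} [Group Γ] [MetricSpace X] [ProperSpace X] [MetricSpace Y]
  [ProperSpace Y] [MulAction Γ X] [MulAction Γ Y] [IsIsometricSMul Γ X] [IsIsometricSMul Γ Y]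
  {G : Geo Γ X Y} {V : Type} [NormedAddCommGroup V] [NormedSpace ℝ V] {j : Y ≃ₜ V}
  [FiniteDimensional ℝ V] {I : G.In3 j} {r₀ t₁ χ : ℝ} {U : X → E2 →L[ℝ] E2}

/-- **the connection of the leaf structure at the base point `o`** -/
def Par.connL (P : Par I.D U) (hc : Geo.Cst I r₀ t₁ χ) (R : Rie G j) (o : Y) :
    Conn (geoInL hc R o) U :=
  letI := G.actB o
  haveI := G.contB o
  P.conn R (hc.small o) (of_leaf hc o)

end Leaf

/-! ### model (A) -/

theorem mC_eq_cl (A : Matrix (Fin Dim.m) (Fin Dim.m) ℝ) : mC A = cl A := by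
  refine ContinuousLinearMap.ext fun v => ?_
  ext i
  rw [H747.mC_apply, cl_apply]

variable {M : Type} [TopologicalSpace M] [ChartedSpace (EV (Dim.m + 1)) M]
  [IsManifold 𝓘(ℝ, EV (Dim.m + 1)) ∞ M] {g : RMetric (EV (Dim.m + 1)) M} [CompactSpace M] [T2Space M]
  [ConnectedSpace M] [Nonempty (Fr g)] (hN : NegCurvature g) (m : M)

theorem EX_geoA (x : Xt g (npc_of_neg hN) m) :
    H607.EX (geoA hN m) (jA (npc_of_neg hN) m) x = EX (npc_of_neg hN) m x := rfl

section

variable (Dm : MDat g (fl g)) {ρ : ℝ} (hT : TubeR g ρ)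
  {ε δ : ℝ} {gs : Fr g → E2 → E2} (hg : (usys Dm hT).Slope ε δ gs)

/-- **parallel transport of the frames over model (A)** -/
def parA : Par (dirS hN m Dm hT hg) fun x => cl (Dm.U x.f) where
  Gam := Gam (npc_of_neg hN) m
  Gam_symm q v w := Gam_symm (npc_of_neg hN) m q v w
  along x c := hasDerivAt_EX_zero (npc_of_neg hN) m x e0 c
  lf_zero x := lfA_zero (npc_of_neg hN) m x
  across x v c := by
    have h1 := hasDerivAt_EX_zero (npc_of_neg hN) m x (pk 0 v) c
    refine h1.congr_of_eventuallyEq (Eventually.of_forall fun t => ?_)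
    change EX (npc_of_neg hN) m (lift _ (co (pk 0 (t • v))) x) c =
      EX (npc_of_neg hN) m (lift _ (t • co (pk 0 v)) x) c
    rw [← H156.co_smul, ← H76.pk_smul, mul_zero]
  W_der x v := by
    have h1 := hasFDerivAt_dirS hN m Dm hT hg x
    have h2 : HasDerivAt (fun t : ℝ => t • v) v 0 := by
      simpa using (hasDerivAt_id (0 : ℝ)).smul_const v
    have h3 : HasFDerivAt ((dirS hN m Dm hT hg).W x) (H265.pk0C.comp (UC Dm x.f))
        ((0 : ℝ) • v) := by
      rw [zero_smul]
      exact h1
    have h4 := h3.comp_hasDerivAt (0 : ℝ) h2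
    refine h4.congr_deriv ?_
    rw [← mC_eq_cl]
    rfl

end

section Metr

variable {hN} {m} {I : (geoA hN m).In3 (jA (npc_of_neg hN) m)} {r₀ t₁ χ : ℝ}
  (hc : H76.Geo.Cst I r₀ t₁ χ) (Dm : MDat g ((horFlows g).Φ 0))

/-- the unstable Riccati solution in the frames of the leaf structure over model (A) -/
def ukA (o : Mt (sys g (npc_of_neg hN)) m) : UK (hc.leaf o) :=
  ukOf ((horFlows g).hor 0) (over_leaf hc o) Dm

/-- **the connection of the leaf structure over model (A)** -/
def connA (P : Par I.D fun x => cl (Dm.U x.f)) (o : Mt (sys g (npc_of_neg hN)) m) :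
    Conn (H607.geoInL hc (H607.rieA hN m) o) (ukA hc Dm o).U :=
  P.connL hc (H607.rieA hN m) o

/-- **the horospherical metric of the leaf structure over model (A)** -/
def metrA (P : Par I.D fun x => cl (Dm.U x.f)) (o : Mt (sys g (npc_of_neg hN)) m) :
    Metr (hc.leaf o) :=
  Conn.metr (k := ukA hc Dm o) (connA hc Dm P o)

theorem metrA_U (P : Par I.D fun x => cl (Dm.U x.f)) (o : Mt (sys g (npc_of_neg hN)) m)
    (x : Xt g (npc_of_neg hN) m) : (metrA hc Dm P o).U x = cl (Dm.U x.f) := rfl

theorem metrA_K (P : Par I.D fun x => cl (Dm.U x.f)) (o : Mt (sys g (npc_of_neg hN)) m)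
    (x : Xt g (npc_of_neg hN) m) : (metrA hc Dm P o).K x = cl (-Km g x.f) := rfl

/-- **the second derivative of the Busemann functions over model (A)** -/
theorem hess_metrA (P : Par I.D fun x => cl (Dm.U x.f)) (o : Mt (sys g (npc_of_neg hN)) m) :
    H722.HessIn (H607.geoInL hc (H607.rieA hN m) o) (metrA hc Dm P o) :=
  Conn.metr_hess (k := ukA hc Dm o) (connA hc Dm P o)

end Metr

end Vale.Agent.P207.N4.H618
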